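import Vale.Agent.P128.Liouville
import Vale.Agent.P128.Cutoff
import Vale.Agent.P128.Gap

/-!
# Gap and growth theorems for global Mumford-Shah minimisers in the plane

Normalised energy at most `1/8`, or oscillation at most `κ √r` with connected complement, on
arbitrarily large disks forces a null singular set; if either quantity tends to zero along such
disks, or `u` is bounded on one side with connected complement, the minimiser is trivial.
-/

open Set Metric MeasureTheory Real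
open scoped ENNReal

namespace Vale.Agent.Results.P128.GrowthGap

open Vale.Agent.P128

/-- A minimiser with zero energy in every disk has null `K` and zero gradient. -/
lemma trivial_of_energy {u : ℂ → ℝ} {K : Set ℂ} (hu : IsGlobalMinimizer u K)
    (h : ∀ ε : ℝ, 0 < ε → ∀ N : ℝ, ∃ r : ℝ, N < r ∧ (msEnergy u K (ball 0 r)).toReal ≤ ε * r) :
    μH[1] K = 0 ∧ ∀ x ∉ K, fderiv ℝ u x = 0 := by
  have hz : ∀ a : ℝ, 0 < a → msEnergy u K (ball 0 a) = 0 := by
    intro a ha
    have h0 : (msEnergy u K (ball 0 a)).toReal ≤ 0 := by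
      refine le_of_forall_pos_le_add fun δ hδ => ?_
      obtain ⟨r, hr, hrε⟩ := h (min (1 / 2) (δ / (2 * a)))
        (lt_min (by norm_num) (by positivity)) a
      refine (energy_ratio hu ha hr (min_le_left _ _) hrε).trans ?_
      have h2 : min (1 / 2) (δ / (2 * a)) * (2 * a) ≤ δ :=
        (le_div_iff₀ (by positivity)).1 (min_le_right _ _)
      linarith
    exact ((ENNReal.toReal_eq_zero_iff _).1 (le_antisymm h0 ENNReal.toReal_nonneg)).resolve_right
      (hu.2.2.1 0 a).ne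
  obtain ⟨hK, hC1, -, -⟩ := hu
  have hb : ∀ n : ℕ, μH[1] (K ∩ ball (0 : ℂ) (n + 1)) = 0 := fun n =>
    (add_eq_zero.1 (hz (n + 1) (by positivity))).2
  refine ⟨?_, fun x hx => ?_⟩
  · refine measure_mono_null (fun x hx => ?_) (measure_iUnion_null hb)
    obtain ⟨n, hn⟩ := exists_nat_gt ‖x‖
    exact mem_iUnion.2 ⟨n, hx, mem_ball_zero_iff.2 (by linarith)⟩
  set U := ball (0 : ℂ) (‖x‖ + 1) \ K
  have hUo : IsOpen U := isOpen_ball.sdiff hK
  have hE : ∫⁻ y in U, ENNReal.ofReal (‖fderiv ℝ u y‖ ^ 2) = 0 :=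
    (add_eq_zero.1 (hz (‖x‖ + 1) (by positivity))).1
  have hcont : ContinuousOn (fun y => ‖fderiv ℝ u y‖ ^ 2) U :=
    (((hC1.continuousOn_fderiv_of_isOpen hK.isOpen_compl le_rfl).mono fun y hy => hy.2).norm).pow 2
  have hae : (fun y => ‖fderiv ℝ u y‖ ^ 2) =ᵐ[volume.restrict U] fun _ => (0 : ℝ) := by
    filter_upwards [(lintegral_eq_zero_iff
      ((measurable_fderiv ℝ u).norm.pow_const 2).ennreal_ofReal).1 hE] with y hy
    exact le_antisymm (ENNReal.ofReal_eq_zero.1 hy) (sq_nonneg _)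
  simpa using Measure.eqOn_open_of_ae_eq hae hUo hcont continuousOn_const
    (⟨mem_ball_zero_iff.2 (lt_add_one _), hx⟩ : x ∈ U)

/-- Gap, growth and one-sided Liouville theorems for global minimisers. -/
theorem result :
    ∃ κ : ℝ, 0 < κ ∧ ∀ (u : ℂ → ℝ) (K : Set ℂ), IsGlobalMinimizer u K →
      ((∀ N : ℝ, ∃ r : ℝ, N < r ∧ (msEnergy u K (ball 0 r)).toReal ≤ r / 8) → μH[1] K = 0) ∧
      ((∀ ε : ℝ, 0 < ε → ∀ N : ℝ, ∃ r : ℝ, N < r ∧ (msEnergy u K (ball 0 r)).toReal ≤ ε * r) →
        μH[1] K = 0 ∧ ∀ x ∉ K, fderiv ℝ u x = 0) ∧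
      (∀ p, ((∃ m, ∀ x ∈ connectedComponentIn Kᶜ p, m ≤ u x) ∨
          ∃ M, ∀ x ∈ connectedComponentIn Kᶜ p, u x ≤ M) →
        ∀ x ∈ connectedComponentIn Kᶜ p, fderiv ℝ u x = 0) ∧
      (IsPreconnected Kᶜ →
        (∀ N : ℝ, ∃ r c : ℝ, N < r ∧ ∀ x ∈ ball (0 : ℂ) r, x ∉ K → |u x - c| ≤ κ * √r) →
        μH[1] K = 0) ∧
      (IsPreconnected Kᶜ →
        ((∀ ε : ℝ, 0 < ε → ∀ N : ℝ, ∃ r c : ℝ, N < r ∧
            ∀ x ∈ ball (0 : ℂ) r, x ∉ K → |u x - c| ≤ ε * √r) ∨
          (∃ m, ∀ x ∉ K, m ≤ u x) ∨ ∃ M, ∀ x ∉ K, u x ≤ M) →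
        μH[1] K = 0 ∧ ∃ c : ℝ, ∀ x ∉ K, u x = c) := by
  obtain ⟨A, hA, hosc⟩ := energy_le_osc
  refine ⟨√(1 / (16 * (A + 1))), by positivity, fun u K hu => ?_⟩
  refine ⟨length_zero_of_small_energy hu, trivial_of_energy hu,
    fun p hb => fderiv_eq_zero_of_bound hu hb, fun hconn hgrow => ?_, fun hconn hcase => ?_⟩
  · refine length_zero_of_small_energy hu fun N => ?_
    obtain ⟨r, c, hr, hb⟩ := hgrow (max (2 * N) 0)
    have hr0 : 0 < r := (le_max_right _ _).trans_lt hr
    have hb' := hosc u K hu hconn (r / 2) c (√(1 / (16 * (A + 1))) * √r) (by positivity)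
      (by positivity) (fun x hx => hb x (by rwa [show 2 * (r / 2) = r by ring] at hx))
    refine ⟨r / 2, by linarith [le_max_left (2 * N) 0], ?_⟩
    refine (ENNReal.toReal_mono ENNReal.ofReal_ne_top hb').trans ?_
    rw [ENNReal.toReal_ofReal (by positivity), mul_pow, Real.sq_sqrt hr0.le,
      Real.sq_sqrt (by positivity)]
    have h1 : A * (1 / (16 * (A + 1))) ≤ 1 / 16 := by
      rw [mul_one_div, div_le_div_iff₀ (by positivity) (by norm_num)]; linarith
    nlinarith [mul_le_mul_of_nonneg_right h1 hr0.le]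
  have hK : IsClosed K := hu.1
  have hC1 := hu.2.1
  have hdiff : ∀ x ∈ Kᶜ, DifferentiableWithinAt ℝ u Kᶜ x := fun x hx =>
    ((hC1.contDiffAt (hK.isOpen_compl.mem_nhds hx)).differentiableAt
      (by norm_num)).differentiableWithinAt
  have key : μH[1] K = 0 ∧ ∀ x ∉ K, fderiv ℝ u x = 0 := by
    refine trivial_of_energy hu fun ε hε N => ?_
    rcases hcase with hgrow | hside
    · set δ := √(ε / (2 * A + 1))
      have hδ : 0 < δ := by positivity
      obtain ⟨r, c, hr, hb⟩ := hgrow δ hδ (max (2 * N) 0)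
      have hr0 : 0 < r := (le_max_right _ _).trans_lt hr
      have hb' := hosc u K hu hconn (r / 2) c (δ * √r) (by positivity) (by positivity)
        (fun x hx => hb x (by rwa [show 2 * (r / 2) = r by ring] at hx))
      refine ⟨r / 2, by linarith [le_max_left (2 * N) 0], ?_⟩
      refine (ENNReal.toReal_mono ENNReal.ofReal_ne_top hb').trans ?_
      rw [ENNReal.toReal_ofReal (by positivity), mul_pow, Real.sq_sqrt hr0.le,
        Real.sq_sqrt (by positivity)]
      have h1 : A * (ε / (2 * A + 1)) ≤ ε / 2 := by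
        rw [mul_div_assoc', div_le_div_iff₀ (by positivity) two_pos]; nlinarith
      nlinarith [mul_le_mul_of_nonneg_right h1 hr0.le]
    · have hgrad : ∀ x ∉ K, fderiv ℝ u x = 0 := fun x hx =>
        fderiv_eq_zero_of_bound hu (p := x)
          (hside.imp (fun ⟨m, hm⟩ => ⟨m, fun y hy => hm y (connectedComponentIn_subset _ _ hy)⟩)
            (fun ⟨M, hM⟩ => ⟨M, fun y hy => hM y (connectedComponentIn_subset _ _ hy)⟩))
          x (mem_connectedComponentIn hx)
      obtain ⟨c, hc⟩ := hK.isOpen_compl.exists_is_const_of_fderiv_eq_zero hconn hdiff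
        (fun x hx => hgrad x hx)
      have hb' := hosc u K hu hconn (max N 0 + 1) c 0 (by positivity) le_rfl
        (fun x _ hx => by simp [hc x hx])
      refine ⟨max N 0 + 1, by linarith [le_max_left N 0], ?_⟩
      refine (ENNReal.toReal_mono ENNReal.ofReal_ne_top hb').trans ?_
      simp only [ne_eq, OfNat.ofNat_ne_zero, not_false_eq_true, zero_pow, mul_zero,
        ENNReal.ofReal_zero, ENNReal.toReal_zero]
      positivity
  exact ⟨key.1, hK.isOpen_compl.exists_is_const_of_fderiv_eq_zero hconn hdiff fun x hx => key.2 x hx⟩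

end Vale.Agent.Results.P128.GrowthGap
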